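import Mathlib

/-!
# P112, chapter (T), T4(i)(b): the integration by parts of the forest (pairing bound)
-/

open MeasureTheory Set Filter
open scoped ENNReal NNReal Topology ContDiff

namespace Vale.Agent.P112.H522

/-- one-dimensional integration by parts, `M` times, for families of derivatives -/
theorem ibp_many (M : ℕ) : ∀ (φ H : ℕ → ℝ → ℝ) (β c : ℝ), β ≠ 0 →
    (∀ a ≤ M, Continuous (φ a)) → (∀ a < M, ∀ x, HasDerivAt (φ a) (φ (a + 1) x) x) →
    (∀ a ≤ M, Continuous (H a)) → (∀ a < M, ∀ x, HasDerivAt (H a) (H (a + 1) x) x) →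
    (∀ a ≤ M, HasCompactSupport (H a)) →
    ∫ x, φ M (c + β * x) * H 0 x = (-β⁻¹) ^ M * ∫ x, φ 0 (c + β * x) * H M x := by
  induction M with
  | zero => intro φ H β c _ _ _ _ _ _; simp
  | succ M ih =>
    intro φ H β c hβ hφc hφd hHc hHd hHs
    have hlin : ∀ x : ℝ, HasDerivAt (fun x : ℝ => c + β * x) β x := by
      intro x
      simpa using ((hasDerivAt_id x).const_mul β).const_add c
    have hstep : ∫ x, φ (M + 1) (c + β * x) * H 0 x
        = (-β⁻¹) * ∫ x, φ M (c + β * x) * H 1 x := by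
      have hu : ∀ x ∈ tsupport (H 0), HasDerivAt (fun x => β⁻¹ * φ M (c + β * x))
          (φ (M + 1) (c + β * x)) x := by
        intro x _
        have h1 := (hφd M (Nat.lt_succ_self M) (c + β * x)).comp x (hlin x)
        have h2 := h1.const_mul β⁻¹
        have h3 : β⁻¹ * (φ (M + 1) (c + β * x) * β) = φ (M + 1) (c + β * x) := by
          field_simp
        rw [h3] at h2
        exact h2
      have hcont0 : Continuous fun x => φ M (c + β * x) :=
        (hφc M (Nat.le_succ M)).comp (by fun_prop)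
      have hcont1 : Continuous fun x => φ (M + 1) (c + β * x) :=
        (hφc (M + 1) le_rfl).comp (by fun_prop)
      have hv : ∀ x, HasDerivAt (H 0) (H 1 x) x := hHd 0 (Nat.succ_pos M)
      have hH0 : Continuous (H 0) := hHc 0 (Nat.zero_le _)
      have hH1 : Continuous (H 1) := hHc 1 (by omega)
      have hi1 : Integrable ((fun x => β⁻¹ * φ M (c + β * x)) * (H 1)) := by
        apply Continuous.integrable_of_hasCompactSupport
        · exact (continuous_const.mul hcont0).mul hH1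
        · exact (hHs 1 (by omega)).mul_left
      have hi2 : Integrable ((fun x => φ (M + 1) (c + β * x)) * (H 0)) := by
        apply Continuous.integrable_of_hasCompactSupport
        · exact hcont1.mul hH0
        · exact (hHs 0 (Nat.zero_le _)).mul_left
      have hi3 : Integrable ((fun x => β⁻¹ * φ M (c + β * x)) * (H 0)) := by
        apply Continuous.integrable_of_hasCompactSupport
        · exact (continuous_const.mul hcont0).mul hH0
        · exact (hHs 0 (Nat.zero_le _)).mul_left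
      have hu' : ∀ x, HasDerivAt (fun x => β⁻¹ * φ M (c + β * x))
          (φ (M + 1) (c + β * x)) x := by
        intro x
        have h1 := (hφd M (Nat.lt_succ_self M) (c + β * x)).comp x (hlin x)
        have h2 := h1.const_mul β⁻¹
        have h3 : β⁻¹ * (φ (M + 1) (c + β * x) * β) = φ (M + 1) (c + β * x) := by
          field_simp
        rw [h3] at h2
        exact h2
      have h := integral_mul_deriv_eq_deriv_mul_of_integrable (fun x _ => hu' x) (fun x _ => hv x)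
        hi1 hi2 hi3
      have h4 : ∫ x, φ (M + 1) (c + β * x) * H 0 x = - ∫ x, β⁻¹ * φ M (c + β * x) * H 1 x := by
        linarith
      rw [h4]
      have h5 : ∀ x, β⁻¹ * φ M (c + β * x) * H 1 x = β⁻¹ * (φ M (c + β * x) * H 1 x) := by
        intro x; ring
      simp_rw [h5]
      rw [integral_const_mul]
      ring
    rw [hstep]
    have hrec := ih φ (fun a => H (a + 1)) β c hβ (fun a ha => hφc a (by omega))
      (fun a ha => hφd a (by omega)) (fun a ha => hHc (a + 1) (by omega))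
      (fun a ha => hHd (a + 1) (by omega)) (fun a ha => hHs (a + 1) (by omega))
    simp only [Nat.zero_add] at hrec
    rw [hrec, pow_succ]
    ring

/-- Leibniz family of a product -/
noncomputable def leib (f g : ℕ → ℝ → ℝ) (n : ℕ) (x : ℝ) : ℝ :=
  ∑ ij ∈ Finset.HasAntidiagonal.antidiagonal n, (n.choose ij.1 : ℝ) * (f ij.1 x * g ij.2 x)

theorem leib_deriv {M : ℕ} {f g : ℕ → ℝ → ℝ}
    (hf : ∀ a < M, ∀ x, HasDerivAt (f a) (f (a + 1) x) x)
    (hg : ∀ a < M, ∀ x, HasDerivAt (g a) (g (a + 1) x) x) :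
    ∀ n < M, ∀ x, HasDerivAt (leib f g n) (leib f g (n + 1) x) x := by
  intro n hn x
  have h1 : HasDerivAt (leib f g n)
      (∑ ij ∈ Finset.HasAntidiagonal.antidiagonal n, (n.choose ij.1 : ℝ) *
        (f (ij.1 + 1) x * g ij.2 x + f ij.1 x * g (ij.2 + 1) x)) x := by
    unfold leib
    apply HasDerivAt.fun_sum
    intro ij hij
    have hle := Finset.HasAntidiagonal.mem_antidiagonal.1 hij
    exact ((hf ij.1 (by omega) x).mul (hg ij.2 (by omega) x)).const_mul _
  have h2 : leib f g (n + 1) x = ∑ ij ∈ Finset.HasAntidiagonal.antidiagonal n, (n.choose ij.1 : ℝ) *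
        (f (ij.1 + 1) x * g ij.2 x + f ij.1 x * g (ij.2 + 1) x) := by
    unfold leib
    rw [Finset.sum_antidiagonal_choose_succ_mul (fun a b => f a x * g b x) n]
    simp_rw [mul_add]
    rw [Finset.sum_add_distrib, add_comm]
    congr 1
    apply Finset.sum_congr rfl
    intro ij hij
    have hle := Finset.HasAntidiagonal.mem_antidiagonal.1 hij
    have h3 : n.choose ij.1 = n.choose ij.2 := by
      rw [← hle]; exact Nat.choose_symm_add
    rw [h3]
  rw [h2]
  exact h1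


/-- the kernel of the band piece `T_j` at the point `z` with value `v` of the field -/
noncomputable def kr (K ψ : ℝ → ℝ) (j : ℕ) (v : ℝ) (z ζ : ℝ × ℝ) : ℝ :=
  2 ^ j * K (2 ^ j * (z.1 - ζ.1)) * ψ (z.2 - ζ.2 - (z.1 - ζ.1) * v)

theorem iter_zero {K : ℝ → ℝ} {r : ℝ} (h : ∀ t, r < |t| → K t = 0) (a : ℕ) {t : ℝ}
    (ht : r < |t|) : iteratedDeriv a K t = 0 := by
  have h1 : K =ᶠ[𝓝 t] fun _ => (0 : ℝ) := by
    have h2 : ∀ᶠ s in 𝓝 t, r < |s| := (continuous_abs.tendsto t).eventually (lt_mem_nhds ht)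
    filter_upwards [h2] with s hs using h s hs
  rw [h1.iteratedDeriv_eq]
  simp

theorem iter_hasDeriv {K : ℝ → ℝ} (hK : ContDiff ℝ ∞ K) (a : ℕ) (x : ℝ) :
    HasDerivAt (iteratedDeriv a K) (iteratedDeriv (a + 1) K x) x := by
  rw [iteratedDeriv_succ]
  apply DifferentiableAt.hasDerivAt
  exact (hK.differentiable_iteratedDeriv a (by exact_mod_cast WithTop.coe_lt_top _)) x

theorem iter_cont {K : ℝ → ℝ} (hK : ContDiff ℝ ∞ K) (a : ℕ) :
    Continuous (iteratedDeriv a K) :=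
  hK.continuous_iteratedDeriv a (by exact_mod_cast le_top)

theorem iter_bdd {K : ℝ → ℝ} (hK : ContDiff ℝ ∞ K) {r : ℝ} (h : ∀ t, r < |t| → K t = 0) (a : ℕ) :
    ∃ C : ℝ, 0 ≤ C ∧ ∀ t, |iteratedDeriv a K t| ≤ C := by
  have h1 : HasCompactSupport (iteratedDeriv a K) := by
    apply HasCompactSupport.intro (isCompact_Icc (a := -r) (b := r))
    intro t ht
    apply iter_zero h a
    by_contra h3
    push Not at h3
    exact ht (abs_le.1 h3)
  obtain ⟨C, hC⟩ := h1.exists_bound_of_continuous (iter_cont hK a)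
  exact ⟨|C|, abs_nonneg _, fun t => (hC t).trans (le_abs_self _)⟩

/-- the derivative family of `x ↦ 2 ^ j K (2 ^ j (x₀ - x))` -/
noncomputable def kap (K : ℝ → ℝ) (j : ℕ) (x₀ : ℝ) (a : ℕ) (x : ℝ) : ℝ :=
  2 ^ j * (-(2 ^ j : ℝ)) ^ a * iteratedDeriv a K (2 ^ j * (x₀ - x))

theorem kap_deriv {K : ℝ → ℝ} (hK : ContDiff ℝ ∞ K) (j : ℕ) (x₀ : ℝ) (a : ℕ) (x : ℝ) :
    HasDerivAt (kap K j x₀ a) (kap K j x₀ (a + 1) x) x := by
  unfold kap
  have h1 : HasDerivAt (fun x : ℝ => 2 ^ j * (x₀ - x)) (-(2 ^ j : ℝ)) x := by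
    have := ((hasDerivAt_id x).const_sub x₀).const_mul (2 ^ j : ℝ)
    simpa using this
  have h2 := (iter_hasDeriv hK a (2 ^ j * (x₀ - x))).comp x h1
  have h3 := h2.const_mul (2 ^ j * (-(2 ^ j : ℝ)) ^ a)
  refine h3.congr_deriv ?_
  rw [pow_succ]
  ring

theorem kap_cont {K : ℝ → ℝ} (hK : ContDiff ℝ ∞ K) (j : ℕ) (x₀ : ℝ) (a : ℕ) :
    Continuous (kap K j x₀ a) := by
  unfold kap
  have := iter_cont hK a
  fun_prop

theorem kap_zero {K : ℝ → ℝ} (h : ∀ t, 1 / 8 < |t| → K t = 0) (j : ℕ) (x₀ : ℝ) (a : ℕ) {x : ℝ}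
    (hx : 1 / 8 < 2 ^ j * |x₀ - x|) : kap K j x₀ a x = 0 := by
  unfold kap
  rw [iter_zero h a, mul_zero]
  rw [abs_mul, abs_of_pos (by positivity : (0:ℝ) < 2 ^ j)]
  exact hx

theorem kap_abs {K : ℝ → ℝ} {C : ℝ} {a : ℕ} (hC : ∀ t, |iteratedDeriv a K t| ≤ C) (j : ℕ)
    (x₀ x : ℝ) : |kap K j x₀ a x| ≤ C * 2 ^ j * 2 ^ (j * a) := by
  unfold kap
  have h0 : (0:ℝ) < 2 ^ j := by positivity
  have h1 : |(-(2 ^ j : ℝ)) ^ a| = 2 ^ (j * a) := by
    rw [abs_pow, abs_neg, abs_of_pos h0, ← pow_mul]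
  rw [abs_mul, abs_mul, h1, abs_of_pos h0]
  have := hC (2 ^ j * (x₀ - x))
  calc (2:ℝ) ^ j * 2 ^ (j * a) * |iteratedDeriv a K (2 ^ j * (x₀ - x))|
      ≤ (2:ℝ) ^ j * 2 ^ (j * a) * C := by gcongr
    _ = _ := by ring

/-- the box of the kernel -/
def box (j : ℕ) (v : ℝ) (z : ℝ × ℝ) : Set (ℝ × ℝ) :=
  {ζ | 2 ^ j * |z.1 - ζ.1| ≤ 1 / 8 ∧ |z.2 - ζ.2 - (z.1 - ζ.1) * v| ≤ 1}

theorem box_closed (j : ℕ) (v : ℝ) (z : ℝ × ℝ) : IsClosed (box j v z) := by
  apply IsClosed.inter
  · exact isClosed_le (f := fun ζ : ℝ × ℝ => 2 ^ j * |z.1 - ζ.1|) (g := fun _ => (1 / 8 : ℝ))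
      (by fun_prop) continuous_const
  · exact isClosed_le (f := fun ζ : ℝ × ℝ => |z.2 - ζ.2 - (z.1 - ζ.1) * v|)
      (g := fun _ => (1 : ℝ)) (by fun_prop) continuous_const

theorem box_meas (j : ℕ) (v : ℝ) (z : ℝ × ℝ) : MeasurableSet (box j v z) :=
  (box_closed j v z).measurableSet

theorem box_sub (j : ℕ) (v : ℝ) (z : ℝ × ℝ) : box j v z ⊆
    Icc (z.1 - 1) (z.1 + 1) ×ˢ Icc (z.2 - (1 + |v|)) (z.2 + (1 + |v|)) := by
  rintro ⟨x, y⟩ ⟨h1, h2⟩
  simp only at h1 h2
  have h3 : |z.1 - x| ≤ 1 := by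
    have h4 : (1:ℝ) ≤ 2 ^ j := one_le_pow₀ (by norm_num)
    nlinarith [abs_nonneg (z.1 - x)]
  have h5 : |(z.1 - x) * v| ≤ |v| := by
    rw [abs_mul]
    nlinarith [abs_nonneg v, abs_nonneg (z.1 - x)]
  have h6 := abs_le.1 h3
  have h7 := abs_le.1 h5
  have h8 := abs_le.1 h2
  refine ⟨⟨by linarith, by linarith⟩, ⟨by linarith, by linarith⟩⟩

theorem kr_zero {K ψ : ℝ → ℝ} (hK : ∀ t, 1 / 8 < |t| → K t = 0) (hψ : ∀ t, 1 < |t| → ψ t = 0)
    (j : ℕ) (v : ℝ) (z : ℝ × ℝ) {ζ : ℝ × ℝ} (h : ζ ∉ box j v z) : kr K ψ j v z ζ = 0 := by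
  unfold kr
  by_cases h1 : 2 ^ j * |z.1 - ζ.1| ≤ 1 / 8
  · have h2 : 1 < |z.2 - ζ.2 - (z.1 - ζ.1) * v| := by
      by_contra h3
      push Not at h3
      exact h ⟨h1, h3⟩
    rw [hψ _ h2, mul_zero]
  · push Not at h1
    rw [hK, mul_zero, zero_mul]
    rw [abs_mul, abs_of_pos (by positivity : (0:ℝ) < 2 ^ j)]
    exact h1

theorem shear_int (s : ℝ) (f : ℝ × ℝ → ℝ) (hf : Continuous f) (hs : HasCompactSupport f) :
    ∫ ζ, f ζ = ∫ Y, ∫ x, f (x, Y + s * x) := by
  have h1 : Integrable f := hf.integrable_of_hasCompactSupport hs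
  have h2 : ∫ ζ, f ζ = ∫ x, ∫ y, f (x, y) := by
    rw [Measure.volume_eq_prod, integral_prod]
    exact h1
  have h3 : ∀ x, ∫ y, f (x, y) = ∫ Y, f (x, Y + s * x) := by
    intro x
    exact (integral_add_right_eq_self (fun y => f (x, y)) (s * x)).symm
  rw [h2]
  simp_rw [h3]
  -- continuity and compact support of the sheared function
  let e : ℝ × ℝ ≃ₜ ℝ × ℝ :=
    { toFun := fun p => (p.1, p.2 + s * p.1)
      invFun := fun p => (p.1, p.2 - s * p.1)
      left_inv := fun p => by simp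
      right_inv := fun p => by simp
      continuous_toFun := by fun_prop
      continuous_invFun := by fun_prop }
  have h4 : Integrable (fun p : ℝ × ℝ => f (p.1, p.2 + s * p.1)) := by
    apply Continuous.integrable_of_hasCompactSupport
    · fun_prop
    · exact hs.comp_homeomorph e
  rw [integral_integral_swap]
  exact h4

theorem shear_lint (s : ℝ) (f : ℝ × ℝ → ℝ≥0∞) (hf : Measurable f) :
    ∫⁻ ζ, f ζ = ∫⁻ Y, ∫⁻ x, f (x, Y + s * x) := by
  have h2 : ∫⁻ ζ, f ζ = ∫⁻ x, ∫⁻ y, f (x, y) := by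
    rw [Measure.volume_eq_prod, lintegral_prod _ hf.aemeasurable]
  have h3 : ∀ x, ∫⁻ y, f (x, y) = ∫⁻ Y, f (x, Y + s * x) := by
    intro x
    exact (lintegral_add_right_eq_self (fun y => f (x, y)) (s * x)).symm
  rw [h2]
  simp_rw [h3]
  rw [lintegral_lintegral_swap]
  exact (by fun_prop : Measurable (fun p : ℝ × ℝ => f (p.1, p.2 + s * p.1))).aemeasurable

/-- **The integration by parts of the forest**, explicit constants. -/
theorem ibp_pair_c (M : ℕ) {K ψM : ℝ → ℝ} (hK : ContDiff ℝ ∞ K)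
    (hKs : ∀ t, 1 / 8 < |t| → K t = 0) (hψ : ContDiff ℝ ∞ ψM) (hψs : ∀ t, 1 < |t| → ψM t = 0)
    {CK : ℕ → ℝ} (hCK0 : ∀ a, 0 ≤ CK a) (hCK : ∀ a ≤ M, ∀ t, |iteratedDeriv a K t| ≤ CK a)
    {Cψ : ℝ} (hCψ0 : 0 ≤ Cψ) (hCψ' : ∀ t, |ψM t| ≤ Cψ)
    (j : ℕ) (z : ℝ × ℝ) (v s : ℝ) (hvs : v ≠ s) (F : ℕ → ℝ × ℝ → ℝ)
    (hFc : ∀ a ≤ M, Continuous (F a))
    (hFd : ∀ a < M, ∀ x Y, HasDerivAt (fun x => F a (x, Y)) (F (a + 1) (x, Y)) x)
    (G : ℝ × ℝ → ℝ≥0∞) (hG : Measurable G)
    (hFG : ∀ a ≤ M, ∀ x Y, ‖F a (x, Y)‖ₑ ≤ ENNReal.ofReal (2 ^ (j * a)) * G (x, Y + s * x)) :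
    ‖∫ ζ, kr K (iteratedDeriv M ψM) j v z ζ * F 0 (ζ.1, ζ.2 - s * ζ.1)‖ₑ ≤
        ENNReal.ofReal ((Cψ * ∑ ij ∈ Finset.HasAntidiagonal.antidiagonal M,
          (M.choose ij.1 : ℝ) * CK ij.1) * (2 ^ j / |v - s|) ^ M * 2 ^ j) *
          ∫⁻ ζ in box j v z, G ζ := by
  set CL : ℝ := ∑ ij ∈ Finset.HasAntidiagonal.antidiagonal M, (M.choose ij.1 : ℝ) * CK ij.1
    with hCL
  have hCL0 : 0 ≤ CL := Finset.sum_nonneg fun ij _ => mul_nonneg (Nat.cast_nonneg _) (hCK0 _)
  have hβ : v - s ≠ 0 := sub_ne_zero.2 hvs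
  set β := v - s with hβdef
  -- the integrand
  set f : ℝ × ℝ → ℝ := fun ζ =>
    kr K (iteratedDeriv M ψM) j v z ζ * F 0 (ζ.1, ζ.2 - s * ζ.1) with hf
  have hψMs : ∀ t, 1 < |t| → iteratedDeriv M ψM t = 0 := fun t ht => iter_zero hψs M ht
  have hfc : Continuous f := by
    have h1 := hK.continuous
    have h2 := iter_cont hψ M
    have h3 := hFc 0 (Nat.zero_le _)
    simp only [hf, kr]
    fun_prop
  have hfs : HasCompactSupport f := by
    apply HasCompactSupport.intro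
      ((isCompact_Icc (a := z.1 - 1) (b := z.1 + 1)).prod
        (isCompact_Icc (a := z.2 - (1 + |v|)) (b := z.2 + (1 + |v|))))
    intro ζ hζ
    have h1 : ζ ∉ box j v z := fun h => hζ (box_sub j v z h)
    simp only [hf]
    rw [kr_zero hKs hψMs j v z h1, zero_mul]
  rw [shear_int s f hfc hfs]
  -- one-dimensional identity
  have hone : ∀ Y, ∫ x, f (x, Y + s * x) = (-β⁻¹) ^ M * ∫ x,
      ψM (z.2 - (Y + s * x) - (z.1 - x) * v) *
        leib (kap K j z.1) (fun a x => F a (x, Y)) M x := by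
    intro Y
    have h := ibp_many M (fun a => iteratedDeriv a ψM)
      (leib (kap K j z.1) (fun a x => F a (x, Y))) β (z.2 - Y - z.1 * v) hβ
      (fun a _ => iter_cont hψ a) (fun a _ x => iter_hasDeriv hψ a x)
      (by
        intro a ha
        unfold leib
        refine continuous_finsetSum _ fun ij hij => ?_
        have hle := Finset.HasAntidiagonal.mem_antidiagonal.1 hij
        have h1 := kap_cont hK j z.1 ij.1
        have h2 := hFc ij.2 (by omega)
        fun_prop)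
      (leib_deriv (fun a _ x => kap_deriv hK j z.1 a x) (fun a ha x => hFd a ha x Y))
      (by
        intro a ha
        apply HasCompactSupport.intro (isCompact_Icc (a := z.1 - 1) (b := z.1 + 1))
        intro x hx
        unfold leib
        apply Finset.sum_eq_zero
        intro ij _
        rw [kap_zero hKs, zero_mul, mul_zero]
        by_contra h3
        push Not at h3
        apply hx
        have h4 : (1:ℝ) ≤ 2 ^ j := one_le_pow₀ (by norm_num)
        have h5 : |z.1 - x| ≤ 1 := by nlinarith [abs_nonneg (z.1 - x)]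
        have h6 := abs_le.1 h5
        exact ⟨by linarith, by linarith⟩)
    have h0 : iteratedDeriv 0 ψM = ψM := iteratedDeriv_zero
    rw [h0] at h
    have e1 : ∀ x : ℝ, z.2 - Y - z.1 * v + β * x = z.2 - (Y + s * x) - (z.1 - x) * v := by
      intro x; rw [hβdef]; ring
    simp_rw [e1] at h
    rw [← h]
    apply integral_congr_ae
    filter_upwards with x
    simp only [hf, kr, leib, kap]
    simp
    ring
  simp_rw [hone]
  -- the pointwise bound of the Leibniz sum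
  have hleib : ∀ Y x, ‖ψM (z.2 - (Y + s * x) - (z.1 - x) * v) *
      leib (kap K j z.1) (fun a x => F a (x, Y)) M x‖ₑ ≤
      ENNReal.ofReal ((Cψ * CL) * 2 ^ j * 2 ^ (j * M)) *
        (box j v z).indicator G (x, Y + s * x) := by
    intro Y x
    by_cases hb : ((x, Y + s * x) : ℝ × ℝ) ∈ box j v z
    · rw [indicator_of_mem hb, enorm_mul]
      have h1 : ‖ψM (z.2 - (Y + s * x) - (z.1 - x) * v)‖ₑ ≤ ENNReal.ofReal Cψ := by
        rw [← ofReal_norm]
        exact ENNReal.ofReal_le_ofReal (hCψ' _)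
      have h2 : ‖leib (kap K j z.1) (fun a x => F a (x, Y)) M x‖ₑ ≤
          ENNReal.ofReal (CL * 2 ^ j * 2 ^ (j * M)) * G (x, Y + s * x) := by
        unfold leib
        calc ‖∑ ij ∈ Finset.HasAntidiagonal.antidiagonal M,
              (M.choose ij.1 : ℝ) * (kap K j z.1 ij.1 x * F ij.2 (x, Y))‖ₑ
            ≤ ∑ ij ∈ Finset.HasAntidiagonal.antidiagonal M,
              ‖(M.choose ij.1 : ℝ) * (kap K j z.1 ij.1 x * F ij.2 (x, Y))‖ₑ := enorm_sum_le _ _
          _ ≤ ∑ ij ∈ Finset.HasAntidiagonal.antidiagonal M,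
              ENNReal.ofReal ((M.choose ij.1 : ℝ) * CK ij.1 * (2 ^ j * 2 ^ (j * M))) *
                G (x, Y + s * x) := by
              apply Finset.sum_le_sum
              intro ij hij
              have hle := Finset.HasAntidiagonal.mem_antidiagonal.1 hij
              rw [enorm_mul, enorm_mul]
              have h3 : ‖(M.choose ij.1 : ℝ)‖ₑ = ENNReal.ofReal (M.choose ij.1 : ℝ) := by
                rw [Real.enorm_eq_ofReal (Nat.cast_nonneg _)]
              have h4 : ‖kap K j z.1 ij.1 x‖ₑ ≤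
                  ENNReal.ofReal (CK ij.1 * 2 ^ j * 2 ^ (j * ij.1)) := by
                rw [← ofReal_norm]
                exact ENNReal.ofReal_le_ofReal (kap_abs (hCK ij.1 (by omega)) j z.1 x)
              have h5 := hFG ij.2 (by omega) x Y
              calc ‖(M.choose ij.1 : ℝ)‖ₑ * (‖kap K j z.1 ij.1 x‖ₑ * ‖F ij.2 (x, Y)‖ₑ)
                  ≤ ENNReal.ofReal (M.choose ij.1 : ℝ) *
                    (ENNReal.ofReal (CK ij.1 * 2 ^ j * 2 ^ (j * ij.1)) *
                      (ENNReal.ofReal (2 ^ (j * ij.2)) * G (x, Y + s * x))) := by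
                    rw [h3]; gcongr
                _ = _ := by
                    rw [← mul_assoc, ← mul_assoc, ← ENNReal.ofReal_mul (Nat.cast_nonneg _),
                      ← ENNReal.ofReal_mul (mul_nonneg (Nat.cast_nonneg _)
                        (mul_nonneg (mul_nonneg (hCK0 _) (by positivity)) (by positivity)))]
                    congr 2
                    have h6 : (2:ℝ) ^ (j * M) = 2 ^ (j * ij.1) * 2 ^ (j * ij.2) := by
                      rw [← pow_add, ← Nat.mul_add, hle]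
                    rw [h6]; ring
          _ = _ := by
              rw [← Finset.sum_mul, ← ENNReal.ofReal_sum_of_nonneg]
              · rw [← Finset.sum_mul, ← hCL]
                congr 2
                ring
              · intro ij _
                exact mul_nonneg (mul_nonneg (Nat.cast_nonneg _) (hCK0 _)) (by positivity)
      calc _ ≤ ENNReal.ofReal Cψ * (ENNReal.ofReal (CL * 2 ^ j * 2 ^ (j * M)) *
            G (x, Y + s * x)) := by gcongr
        _ = _ := by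
            rw [← mul_assoc, ← ENNReal.ofReal_mul hCψ0]
            congr 2
            ring
    · have h0 : ψM (z.2 - (Y + s * x) - (z.1 - x) * v) *
          leib (kap K j z.1) (fun a x => F a (x, Y)) M x = 0 := by
        by_cases h1 : 2 ^ j * |z.1 - x| ≤ 1 / 8
        · have h2 : 1 < |z.2 - (Y + s * x) - (z.1 - x) * v| := by
            by_contra h3
            push Not at h3
            exact hb ⟨h1, h3⟩
          rw [hψs _ h2, zero_mul]
        · push Not at h1
          have h2 : leib (kap K j z.1) (fun a x => F a (x, Y)) M x = 0 := by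
            unfold leib
            apply Finset.sum_eq_zero
            intro ij _
            rw [kap_zero hKs j z.1 ij.1 h1, zero_mul, mul_zero]
          rw [h2, mul_zero]
      rw [h0]
      simp
  -- assembly
  calc ‖∫ Y, (-β⁻¹) ^ M * ∫ x, ψM (z.2 - (Y + s * x) - (z.1 - x) * v) *
        leib (kap K j z.1) (fun a x => F a (x, Y)) M x‖ₑ
      ≤ ∫⁻ Y, ‖(-β⁻¹) ^ M * ∫ x, ψM (z.2 - (Y + s * x) - (z.1 - x) * v) *
        leib (kap K j z.1) (fun a x => F a (x, Y)) M x‖ₑ := enorm_integral_le_lintegral_enorm _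
    _ ≤ ∫⁻ Y, ENNReal.ofReal (|β|⁻¹ ^ M) * ∫⁻ x,
          ENNReal.ofReal ((Cψ * CL) * 2 ^ j * 2 ^ (j * M)) *
            (box j v z).indicator G (x, Y + s * x) := by
        apply lintegral_mono
        intro Y
        simp only
        rw [enorm_mul]
        have h1 : ‖(-β⁻¹) ^ M‖ₑ = ENNReal.ofReal (|β|⁻¹ ^ M) := by
          rw [← ofReal_norm, Real.norm_eq_abs, abs_pow, abs_neg, abs_inv]
        rw [h1]
        gcongr
        exact (enorm_integral_le_lintegral_enorm _).trans (lintegral_mono (fun x => hleib Y x))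
    _ = ENNReal.ofReal (|β|⁻¹ ^ M) * (ENNReal.ofReal ((Cψ * CL) * 2 ^ j * 2 ^ (j * M)) *
          ∫⁻ ζ, (box j v z).indicator G ζ) := by
        have hm : Measurable ((box j v z).indicator G) := hG.indicator (box_meas j v z)
        rw [shear_lint s _ hm, lintegral_const_mul']
        · congr 1
          have h2 : ∀ Y, ∫⁻ x, ENNReal.ofReal ((Cψ * CL) * 2 ^ j * 2 ^ (j * M)) *
              (box j v z).indicator G (x, Y + s * x) =
              ENNReal.ofReal ((Cψ * CL) * 2 ^ j * 2 ^ (j * M)) *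
                ∫⁻ x, (box j v z).indicator G (x, Y + s * x) := by
            intro Y
            rw [lintegral_const_mul' _ _ ENNReal.ofReal_ne_top]
          simp_rw [h2]
          rw [lintegral_const_mul' _ _ ENNReal.ofReal_ne_top]
        · exact ENNReal.ofReal_ne_top
    _ ≤ _ := by
        rw [lintegral_indicator (box_meas j v z), ← mul_assoc,
          ← ENNReal.ofReal_mul (by positivity)]
        have h3 : |β|⁻¹ ^ M * (Cψ * CL * 2 ^ j * 2 ^ (j * M)) =
            (Cψ * CL) * (2 ^ j / |β|) ^ M * 2 ^ j := by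
          rw [div_pow, ← pow_mul, inv_pow]
          field_simp
        rw [h3]

/-- **The integration by parts of the forest.** -/
theorem ibp_pair (M : ℕ) {K ψM : ℝ → ℝ} (hK : ContDiff ℝ ∞ K)
    (hKs : ∀ t, 1 / 8 < |t| → K t = 0) (hψ : ContDiff ℝ ∞ ψM) (hψs : ∀ t, 1 < |t| → ψM t = 0) :
    ∃ C : ℝ, 0 < C ∧ ∀ (j : ℕ) (z : ℝ × ℝ) (v s : ℝ), v ≠ s → ∀ (F : ℕ → ℝ × ℝ → ℝ),
      (∀ a ≤ M, Continuous (F a)) →
      (∀ a < M, ∀ x Y, HasDerivAt (fun x => F a (x, Y)) (F (a + 1) (x, Y)) x) →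
      ∀ (G : ℝ × ℝ → ℝ≥0∞), Measurable G →
      (∀ a ≤ M, ∀ x Y, ‖F a (x, Y)‖ₑ ≤ ENNReal.ofReal (2 ^ (j * a)) * G (x, Y + s * x)) →
      ‖∫ ζ, kr K (iteratedDeriv M ψM) j v z ζ * F 0 (ζ.1, ζ.2 - s * ζ.1)‖ₑ ≤
        ENNReal.ofReal (C * (2 ^ j / |v - s|) ^ M * 2 ^ j) * ∫⁻ ζ in box j v z, G ζ := by
  choose CK hCK0 hCK using fun a => iter_bdd hK hKs a
  obtain ⟨Cψ, hCψ0, hCψ⟩ := iter_bdd hψ hψs 0
  have hCψ' : ∀ t, |ψM t| ≤ Cψ := by simpa using hCψ
  have hCL0 : 0 ≤ ∑ ij ∈ Finset.HasAntidiagonal.antidiagonal M, (M.choose ij.1 : ℝ) * CK ij.1 :=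
    Finset.sum_nonneg fun ij _ => mul_nonneg (Nat.cast_nonneg _) (hCK0 _)
  refine ⟨Cψ * (∑ ij ∈ Finset.HasAntidiagonal.antidiagonal M, (M.choose ij.1 : ℝ) * CK ij.1) + 1,
    by positivity, ?_⟩
  intro j z v s hvs F hFc hFd G hG hFG
  refine (ibp_pair_c M hK hKs hψ hψs hCK0 (fun a _ => hCK a) hCψ0 hCψ' j z v s hvs F hFc hFd G hG
    hFG).trans ?_
  gcongr
  linarith

end Vale.Agent.P112.H522
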