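import Vale.Agent.P112.T.Defs
import Vale.Agent.P112.H522.Ibp

/-!
# P112, chapter (T), `StT4b`: integration by parts against a tree sum
-/

open MeasureTheory Set Filter
open scoped ENNReal NNReal Topology ContDiff

set_option linter.unusedSectionVars false

namespace Vale.Agent.P112.H522

open Vale.Agent.P112.T

/-- the derivative family of the band factor along a line of slope `s` -/
noncomputable def pq (ψ : ℝ → ℝ) (w s : ℝ) (z : ℝ × ℝ) (Y : ℝ) (q : ℕ) (x : ℝ) : ℝ :=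
  (w - s) ^ q * iteratedDeriv q ψ (z.2 - (Y + s * x) - (z.1 - x) * w)

theorem pq_deriv {ψ : ℝ → ℝ} (hψ : ContDiff ℝ ∞ ψ) (w s : ℝ) (z : ℝ × ℝ) (Y : ℝ) (q : ℕ)
    (x : ℝ) : HasDerivAt (pq ψ w s z Y q) (pq ψ w s z Y (q + 1) x) x := by
  unfold pq
  have h1 : HasDerivAt (fun x : ℝ => z.2 - (Y + s * x) - (z.1 - x) * w) (w - s) x := by
    have ha : HasDerivAt (fun x : ℝ => z.2 - (Y + s * x)) (-s) x := by
      have := (((hasDerivAt_id x).const_mul s).const_add Y).const_sub z.2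
      simpa using this
    have hb : HasDerivAt (fun x : ℝ => (z.1 - x) * w) (-w) x := by
      have := ((hasDerivAt_id x).const_sub z.1).mul_const w
      simpa using this
    refine (ha.sub hb).congr_deriv ?_
    ring
  have h2 := (iter_hasDeriv hψ q (z.2 - (Y + s * x) - (z.1 - x) * w)).comp x h1
  have h3 := h2.const_mul ((w - s) ^ q)
  refine h3.congr_deriv ?_
  rw [pow_succ]
  ring

/-- the `x`-derivatives (at fixed `Y`) of the kernel `k_i(z; (x, Y + s x))` -/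
noncomputable def DD (K ψ : ℝ → ℝ) (i : ℕ) (w s : ℝ) (z : ℝ × ℝ) (a : ℕ) (p : ℝ × ℝ) : ℝ :=
  leib (kap K i z.1) (pq ψ w s z p.2) a p.1

theorem DD_deriv {K ψ : ℝ → ℝ} (hK : ContDiff ℝ ∞ K) (hψ : ContDiff ℝ ∞ ψ) (i : ℕ) (w s : ℝ)
    (z : ℝ × ℝ) (a : ℕ) (x Y : ℝ) :
    HasDerivAt (fun x => DD K ψ i w s z a (x, Y)) (DD K ψ i w s z (a + 1) (x, Y)) x := by
  unfold DD
  exact leib_deriv (M := a + 1) (fun b _ x => kap_deriv hK i z.1 b x)
    (fun b _ x => pq_deriv hψ w s z Y b x) a (Nat.lt_succ_self a) x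

theorem DD_cont {K ψ : ℝ → ℝ} (hK : ContDiff ℝ ∞ K) (hψ : ContDiff ℝ ∞ ψ) (i : ℕ) (w s : ℝ)
    (z : ℝ × ℝ) (a : ℕ) : Continuous (DD K ψ i w s z a) := by
  unfold DD leib
  refine continuous_finsetSum _ fun ij _ => ?_
  unfold pq
  have h1 := kap_cont hK i z.1 ij.1
  have h2 := iter_cont hψ ij.2
  fun_prop

theorem DD_meas {K ψ : ℝ → ℝ} (hK : ContDiff ℝ ∞ K) (hψ : ContDiff ℝ ∞ ψ) (i : ℕ) (s : ℝ)
    {u : ℝ × ℝ → ℝ} (hu : Measurable u) (a : ℕ) (p : ℝ × ℝ) :
    Measurable (fun z => DD K ψ i (u z) s z a p) := by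
  unfold DD leib
  refine Finset.measurable_sum _ fun ij _ => ?_
  unfold pq kap
  have h1 : Measurable (iteratedDeriv ij.1 K) := (iter_cont hK ij.1).measurable
  have h2 : Measurable (iteratedDeriv ij.2 ψ) := (iter_cont hψ ij.2).measurable
  fun_prop

theorem DD_zero {K ψ : ℝ → ℝ} (hK : ∀ t, 1 / 8 < |t| → K t = 0) (hψ : ∀ t, 1 < |t| → ψ t = 0)
    (i : ℕ) (w s : ℝ) (z : ℝ × ℝ) (a : ℕ) {x Y : ℝ}
    (h : ¬ (2 ^ i * |z.1 - x| ≤ 1 / 8 ∧ |z.2 - (Y + s * x) - (z.1 - x) * w| ≤ 1)) :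
    DD K ψ i w s z a (x, Y) = 0 := by
  unfold DD leib
  apply Finset.sum_eq_zero
  intro ij _
  by_cases h1 : 2 ^ i * |z.1 - x| ≤ 1 / 8
  · have h2 : 1 < |z.2 - (Y + s * x) - (z.1 - x) * w| := by
      by_contra h3
      push Not at h3
      exact h ⟨h1, h3⟩
    have h4 : pq ψ w s z Y ij.2 x = 0 := by
      unfold pq
      rw [iter_zero hψ ij.2 h2, mul_zero]
    simp only
    rw [h4, mul_zero, mul_zero]
  · push Not at h1
    simp only
    rw [kap_zero hK i z.1 ij.1 h1, zero_mul, mul_zero]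

/-- the constant of the kernel bounds -/
theorem DD_bound {K ψ : ℝ → ℝ} (hK : ContDiff ℝ ∞ K) (hKs : ∀ t, 1 / 8 < |t| → K t = 0)
    (hψ : ContDiff ℝ ∞ ψ) (hψs : ∀ t, 1 < |t| → ψ t = 0) {A : ℝ} (hA : 0 ≤ A) (a : ℕ) :
    ∃ C : ℝ, 0 ≤ C ∧ ∀ (i : ℕ) (w s : ℝ) (z : ℝ × ℝ), |w - s| ≤ A * 2 ^ i → ∀ p : ℝ × ℝ,
      |DD K ψ i w s z a p| ≤ C * 2 ^ i * 2 ^ (i * a) := by
  choose CK hCK0 hCK using fun a => iter_bdd hK hKs a
  choose Cp hCp0 hCp using fun a => iter_bdd hψ hψs a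
  refine ⟨∑ ij ∈ Finset.HasAntidiagonal.antidiagonal a,
    (a.choose ij.1 : ℝ) * (CK ij.1 * (A ^ ij.2 * Cp ij.2)), ?_, ?_⟩
  · exact Finset.sum_nonneg fun ij _ => mul_nonneg (Nat.cast_nonneg _)
      (mul_nonneg (hCK0 _) (mul_nonneg (by positivity) (hCp0 _)))
  · intro i w s z hw p
    unfold DD leib
    rw [Finset.sum_mul, Finset.sum_mul]
    refine (Finset.abs_sum_le_sum_abs _ _).trans (Finset.sum_le_sum fun ij hij => ?_)
    have hle := Finset.HasAntidiagonal.mem_antidiagonal.1 hij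
    have h1 := kap_abs (hCK ij.1) i z.1 p.1
    have h2 : |pq ψ w s z p.2 ij.2 p.1| ≤ A ^ ij.2 * 2 ^ (i * ij.2) * Cp ij.2 := by
      unfold pq
      rw [abs_mul, abs_pow]
      have h3 : |w - s| ^ ij.2 ≤ A ^ ij.2 * 2 ^ (i * ij.2) := by
        rw [pow_mul, ← mul_pow]
        exact pow_le_pow_left₀ (abs_nonneg _) hw _
      exact mul_le_mul h3 (hCp ij.2 _) (abs_nonneg _) (by positivity)
    rw [abs_mul, abs_mul, abs_of_nonneg (Nat.cast_nonneg _ : (0:ℝ) ≤ (a.choose ij.1 : ℝ))]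
    calc (a.choose ij.1 : ℝ) * (|kap K i z.1 ij.1 p.1| * |pq ψ w s z p.2 ij.2 p.1|)
        ≤ (a.choose ij.1 : ℝ) * ((CK ij.1 * 2 ^ i * 2 ^ (i * ij.1)) *
            (A ^ ij.2 * 2 ^ (i * ij.2) * Cp ij.2)) := by
          refine mul_le_mul_of_nonneg_left ?_ (Nat.cast_nonneg _)
          exact mul_le_mul h1 h2 (abs_nonneg _)
            (mul_nonneg (mul_nonneg (hCK0 _) (by positivity)) (by positivity))
      _ = _ := by
          have h6 : (2:ℝ) ^ (i * a) = 2 ^ (i * ij.1) * 2 ^ (i * ij.2) := by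
            rw [← pow_add, ← Nat.mul_add, hle]
          rw [h6]; ring

theorem nice_integrable {g : ℝ × ℝ → ℝ} (hg : Nice g) : Integrable g := by
  obtain ⟨C, hC⟩ := hg.bdd
  obtain ⟨r, hr⟩ := hg.supp
  have hsub : Function.support g ⊆ Icc (-r) r ×ˢ Icc (-r) r := by
    intro z hz
    by_contra h
    apply hz
    apply hr
    by_contra h2
    push Not at h2
    exact h ⟨abs_le.1 h2.1.le, abs_le.1 h2.2.le⟩
  rw [← integrableOn_iff_integrable_of_support_subset hsub]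
  apply Measure.integrableOn_of_bounded (M := C)
  · exact ((isCompact_Icc (a := -r) (b := r)).prod (isCompact_Icc (a := -r) (b := r))).measure_ne_top
  · exact hg.meas.aestronglyMeasurable
  · filter_upwards with z using hC z

/-- the derivative family of a tree sum in the frame of slope `s` -/
noncomputable def FF (K ψ : ℝ → ℝ) (u : ℝ × ℝ → ℝ) (g : ℝ × ℝ → ℝ) (E : ℕ → Set (ℝ × ℝ)) (s : ℝ)
    (m a : ℕ) (p : ℝ × ℝ) : ℝ :=
  ∑ i ∈ Finset.range m, ∫ z, DD K ψ i (u z) s z a p * (E i).indicator g z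

section
variable {K ψ : ℝ → ℝ} (hK : ContDiff ℝ ∞ K) (hKs : ∀ t, 1 / 8 < |t| → K t = 0)
    (hψ : ContDiff ℝ ∞ ψ) (hψs : ∀ t, 1 < |t| → ψ t = 0) {u : ℝ × ℝ → ℝ} (hu : Measurable u)
    {g : ℝ × ℝ → ℝ} (hg : Nice g) {E : ℕ → Set (ℝ × ℝ)} (hE : ∀ j, MeasurableSet (E j)) {s A : ℝ}
    (hA : 0 ≤ A)
include hK hKs hψ hψs hu hg hE hA

theorem DDg_bound {i : ℕ} (hs : ∀ z ∈ E i, |u z - s| ≤ A * 2 ^ i) (a : ℕ) :
    ∃ C : ℝ, ∀ p z, |DD K ψ i (u z) s z a p * (E i).indicator g z| ≤ C * |g z| := by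
  obtain ⟨C, hC0, hC⟩ := DD_bound hK hKs hψ hψs hA a
  refine ⟨C * 2 ^ i * 2 ^ (i * a), fun p z => ?_⟩
  by_cases hz : z ∈ E i
  · rw [indicator_of_mem hz, abs_mul]
    exact mul_le_mul_of_nonneg_right (hC i (u z) s z (hs z hz) p) (abs_nonneg _)
  · rw [indicator_of_notMem hz, mul_zero, abs_zero]
    positivity

theorem DDg_meas (i a : ℕ) (p : ℝ × ℝ) :
    AEStronglyMeasurable (fun z => DD K ψ i (u z) s z a p * (E i).indicator g z) volume :=
  ((DD_meas hK hψ i s hu a p).mul (hg.meas.indicator (hE i))).aestronglyMeasurable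

theorem DDg_integrable {i : ℕ} (hs : ∀ z ∈ E i, |u z - s| ≤ A * 2 ^ i) (a : ℕ) (p : ℝ × ℝ) :
    Integrable (fun z => DD K ψ i (u z) s z a p * (E i).indicator g z) := by
  obtain ⟨C, hC⟩ := DDg_bound hK hKs hψ hψs hu hg hE hA hs a
  refine Integrable.mono' (g := fun z => C * |g z|) ((nice_integrable hg).abs.const_mul C)
    (DDg_meas hK hKs hψ hψs hu hg hE hA i a p) ?_
  filter_upwards with z using hC p z

theorem FF_cont {m : ℕ} (hs : ∀ i < m, ∀ z ∈ E i, |u z - s| ≤ A * 2 ^ i) (a : ℕ) :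
    Continuous (FF K ψ u g E s m a) := by
  unfold FF
  refine continuous_finsetSum _ fun i hi => ?_
  obtain ⟨C, hC⟩ := DDg_bound hK hKs hψ hψs hu hg hE hA (hs i (Finset.mem_range.1 hi)) a
  refine continuous_of_dominated (bound := fun z => C * |g z|)
    (fun p => DDg_meas hK hKs hψ hψs hu hg hE hA i a p) ?_
    ((nice_integrable hg).abs.const_mul C) ?_
  · intro p
    filter_upwards with z using hC p z
  · filter_upwards with z
    exact (DD_cont hK hψ i (u z) s z a).mul continuous_const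

theorem FF_deriv {m : ℕ} (hs : ∀ i < m, ∀ z ∈ E i, |u z - s| ≤ A * 2 ^ i) (a : ℕ) (x Y : ℝ) :
    HasDerivAt (fun x => FF K ψ u g E s m a (x, Y)) (FF K ψ u g E s m (a + 1) (x, Y)) x := by
  unfold FF
  apply HasDerivAt.fun_sum
  intro i hi
  have hs' := hs i (Finset.mem_range.1 hi)
  obtain ⟨C, hC⟩ := DDg_bound hK hKs hψ hψs hu hg hE hA hs' (a + 1)
  have h := hasDerivAt_integral_of_dominated_loc_of_deriv_le (μ := (volume : Measure (ℝ × ℝ)))
    (F := fun x z => DD K ψ i (u z) s z a (x, Y) * (E i).indicator g z)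
    (F' := fun x z => DD K ψ i (u z) s z (a + 1) (x, Y) * (E i).indicator g z)
    (x₀ := x) (s := univ) (bound := fun z => C * |g z|) univ_mem
    (by
      filter_upwards with x
      exact DDg_meas hK hKs hψ hψs hu hg hE hA i a (x, Y))
    (DDg_integrable hK hKs hψ hψs hu hg hE hA hs' a (x, Y))
    (DDg_meas hK hKs hψ hψs hu hg hE hA i (a + 1) (x, Y))
    (by
      filter_upwards with z x _
      exact hC (x, Y) z)
    ((nice_integrable hg).abs.const_mul C)
    (by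
      filter_upwards with z x _
      exact (DD_deriv hK hψ i (u z) s z a x Y).mul_const _)
  exact h.2

end


/-- the set of the tube average -/
def avs (s B : ℝ) (j : ℕ) (ζ : ℝ × ℝ) : Set (ℝ × ℝ) :=
  {z : ℝ × ℝ | |z.1 - ζ.1| ≤ B / 2 ^ j ∧ |(z.2 - s * z.1) - (ζ.2 - s * ζ.1)| ≤ B}

theorem avs_closed (s B : ℝ) (j : ℕ) (ζ : ℝ × ℝ) : IsClosed (avs s B j ζ) := by
  apply IsClosed.inter
  · exact isClosed_le (f := fun z : ℝ × ℝ => |z.1 - ζ.1|) (g := fun _ => B / 2 ^ j)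
      (by fun_prop) continuous_const
  · exact isClosed_le (f := fun z : ℝ × ℝ => |(z.2 - s * z.1) - (ζ.2 - s * ζ.1)|)
      (g := fun _ => B) (by fun_prop) continuous_const

theorem avs_meas (s B : ℝ) (j : ℕ) (ζ : ℝ × ℝ) : MeasurableSet (avs s B j ζ) :=
  (avs_closed s B j ζ).measurableSet

theorem avs_sub (s B : ℝ) (hB : 0 ≤ B) (j : ℕ) (ζ : ℝ × ℝ) : avs s B j ζ ⊆
    Icc (ζ.1 - B) (ζ.1 + B) ×ˢ Icc (ζ.2 - (B + |s| * B)) (ζ.2 + (B + |s| * B)) := by
  rintro ⟨x, y⟩ ⟨h1, h2⟩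
  simp only at h1 h2
  have h4 : (1:ℝ) ≤ 2 ^ j := one_le_pow₀ (by norm_num)
  have h3 : |x - ζ.1| ≤ B := h1.trans (div_le_self hB h4)
  have h5 : |s * (x - ζ.1)| ≤ |s| * B := by
    rw [abs_mul]
    exact mul_le_mul_of_nonneg_left h3 (abs_nonneg _)
  have h6 := abs_le.1 h3
  have h7 := abs_le.1 h5
  have h8 := abs_le.1 h2
  refine ⟨⟨by linarith, by linarith⟩, ⟨by linarith, by linarith⟩⟩

theorem avs_fin (s B : ℝ) (hB : 0 ≤ B) (j : ℕ) (ζ : ℝ × ℝ) : volume (avs s B j ζ) < ⊤ :=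
  (measure_mono (avs_sub s B hB j ζ)).trans_lt
    ((isCompact_Icc.prod isCompact_Icc).measure_lt_top)

theorem Av_eq (s B : ℝ) (j : ℕ) (h : ℝ × ℝ → ℝ) (ζ : ℝ × ℝ) :
    Av s B j h ζ = 2 ^ j * ∫ z in avs s B j ζ, h z := rfl

theorem Av_nonneg (s B : ℝ) (j : ℕ) {h : ℝ × ℝ → ℝ} (hh : ∀ z, 0 ≤ h z) (ζ : ℝ × ℝ) :
    0 ≤ Av s B j h ζ := by
  rw [Av_eq]
  exact mul_nonneg (by positivity) (integral_nonneg fun z => hh z)

theorem Av_le (s B : ℝ) (j : ℕ) {h : ℝ × ℝ → ℝ} (hi : Integrable h) (hh : ∀ z, 0 ≤ h z)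
    (ζ : ℝ × ℝ) : Av s B j h ζ ≤ 2 ^ j * ∫ z, h z := by
  rw [Av_eq]
  refine mul_le_mul_of_nonneg_left ?_ (by positivity)
  exact setIntegral_le_integral hi (Filter.Eventually.of_forall hh)

theorem Av_meas (s B : ℝ) (j : ℕ) {h : ℝ × ℝ → ℝ} (hm : Measurable h) :
    Measurable (Av s B j h) := by
  have h1 : ∀ ζ, Av s B j h ζ = 2 ^ j * ∫ z, (avs s B j ζ).indicator h z := by
    intro ζ
    rw [Av_eq, integral_indicator (avs_meas s B j ζ)]
  have h2 : Measurable (fun p : (ℝ × ℝ) × (ℝ × ℝ) => (avs s B j p.1).indicator h p.2) := by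
    have h3 : MeasurableSet {p : (ℝ × ℝ) × (ℝ × ℝ) | p.2 ∈ avs s B j p.1} := by
      apply IsClosed.measurableSet
      apply IsClosed.inter
      · exact isClosed_le (f := fun p : (ℝ × ℝ) × (ℝ × ℝ) => |p.2.1 - p.1.1|)
          (g := fun _ => B / 2 ^ j) (by fun_prop) continuous_const
      · exact isClosed_le (f := fun p : (ℝ × ℝ) × (ℝ × ℝ) =>
          |(p.2.2 - s * p.2.1) - (p.1.2 - s * p.1.1)|) (g := fun _ => B)
          (by fun_prop) continuous_const
    have h4 : (fun p : (ℝ × ℝ) × (ℝ × ℝ) => (avs s B j p.1).indicator h p.2) =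
        {p : (ℝ × ℝ) × (ℝ × ℝ) | p.2 ∈ avs s B j p.1}.indicator (fun p => h p.2) := by
      funext p
      by_cases hp : p.2 ∈ avs s B j p.1
      · rw [indicator_of_mem hp, indicator_of_mem (show p ∈ {p : (ℝ × ℝ) × (ℝ × ℝ) |
          p.2 ∈ avs s B j p.1} from hp)]
      · rw [indicator_of_notMem hp, indicator_of_notMem (show p ∉ {p : (ℝ × ℝ) × (ℝ × ℝ) |
          p.2 ∈ avs s B j p.1} from hp)]
    rw [h4]
    exact (hm.comp measurable_snd).indicator h3
  have h5 : Measurable fun ζ => ∫ z, (avs s B j ζ).indicator h z :=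
    (h2.stronglyMeasurable.integral_prod_right').measurable
  rw [show Av s B j h = fun ζ => 2 ^ j * ∫ z, (avs s B j ζ).indicator h z from funext h1]
  exact h5.const_mul _

theorem stT4b {M : ℕ} (κ : Ker M) (A : ℝ) (hM : 2 ≤ M) (hA1 : 1 ≤ A) : StT4b κ A := by
  have hA : 0 ≤ A := by linarith
  have hKs : ∀ t, 1 / 8 < |t| → κ.K t = 0 := fun t ht => κ.suppK t ht.le
  have hΦs : ∀ t, 1 < |t| → κ.Φ t = 0 := fun t ht => κ.suppΦ t ht.le
  -- the twice integrated band function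
  set P : ℝ → ℝ := iteratedDeriv (M - 2) κ.Φ with hP
  have hPc : ContDiff ℝ ∞ P := by
    rw [hP, iteratedDeriv_eq_iterate]
    exact κ.smoothΦ.iterate_deriv _
  have hPs : ∀ t, 1 < |t| → P t = 0 := fun t ht => iter_zero hΦs _ ht
  have hPM : iteratedDeriv 2 P = κ.psi := by
    rw [hP, Ker.psi, iteratedDeriv_eq_iterate, iteratedDeriv_eq_iterate, iteratedDeriv_eq_iterate,
      ← Function.iterate_add_apply]
    congr 2
    omega
  have hψc : ContDiff ℝ ∞ κ.psi := by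
    rw [← hPM, iteratedDeriv_eq_iterate]
    exact hPc.iterate_deriv _
  have hψs : ∀ t, 1 < |t| → κ.psi t = 0 := fun t ht => iter_zero hΦs _ ht
  obtain ⟨C, hC0, hC⟩ := ibp_pair 2 κ.smoothK hKs hPc hPs
  obtain ⟨C1, hC10, hC1⟩ := DD_bound κ.smoothK hKs hψc hψs hA 1
  obtain ⟨C2, hC20, hC2⟩ := DD_bound κ.smoothK hKs hψc hψs hA 2
  set CG : ℝ := 1 + C1 + C2 with hCG
  have hCG1 : 1 ≤ CG := by rw [hCG]; linarith
  refine ⟨C * CG, 1 + A, by positivity, by linarith, ?_⟩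
  intro u hu n E hE s hs g hg j hj m hm v z hv
  have hs' : ∀ i < m, ∀ z ∈ E i, |u z - s| ≤ A * 2 ^ i := fun i hi => hs i (by omega)
  have hvs : v ≠ s := by
    intro h
    rw [h, sub_self, abs_zero] at hv
    have : (0:ℝ) < 2 ^ j := by positivity
    linarith
  -- absolute values of `g` on the pieces
  have hga : ∀ i, Integrable ((E i).indicator fun z => |g z|) := fun i =>
    (nice_integrable hg).abs.indicator (hE i)
  have hgm : ∀ i, Measurable ((E i).indicator fun z => |g z|) := fun i =>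
    (continuous_abs.measurable.comp hg.meas).indicator (hE i)
  have hg0 : ∀ i z, 0 ≤ (E i).indicator (fun z => |g z|) z := fun i z =>
    indicator_nonneg (fun z _ => abs_nonneg _) z
  set H : ℝ × ℝ → ℝ := fun ζ => ∑ i ∈ Finset.range m,
    2 ^ i / 2 ^ j * Av s (1 + A) i ((E i).indicator fun z => |g z|) ζ with hH
  have hH0 : ∀ ζ, 0 ≤ H ζ := fun ζ => Finset.sum_nonneg fun i _ =>
    mul_nonneg (by positivity) (Av_nonneg _ _ _ (hg0 i) ζ)
  have hHm : Measurable H := by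
    rw [hH]
    refine Finset.measurable_sum _ fun i _ => ?_
    exact (Av_meas s (1 + A) i (hgm i)).const_mul _
  set F : ℕ → ℝ × ℝ → ℝ := FF κ.K κ.psi u g E s m with hF
  have hF0 : ∀ ζ : ℝ × ℝ, F 0 (ζ.1, ζ.2 - s * ζ.1) = κ.FS u g E m ζ := by
    intro ζ
    rw [hF]
    unfold FF Ker.FS Ker.S
    refine Finset.sum_congr rfl fun i _ => ?_
    refine integral_congr_ae (Filter.Eventually.of_forall fun z => ?_)
    simp only [DD, leib, kap, pq, Ker.k]
    simp
  have hF0' : ∀ x Y : ℝ, F 0 (x, Y) = κ.FS u g E m (x, Y + s * x) := by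
    intro x Y
    rw [← hF0]
    simp
  have hFc : ∀ a, Continuous (F a) := fun a => FF_cont κ.smoothK hKs hψc hψs hu.meas hg hE hA hs' a
  have hFSc : Continuous (κ.FS u g E m) := by
    rw [show κ.FS u g E m = fun ζ => F 0 (ζ.1, ζ.2 - s * ζ.1) from (funext hF0).symm]
    exact (hFc 0).comp (by fun_prop)
  -- the pointwise bounds of the derivatives
  have hder : ∀ a : ℕ, 1 ≤ a → ∀ Ca : ℝ, 0 ≤ Ca → (∀ (i : ℕ) (w s : ℝ) (z : ℝ × ℝ),
      |w - s| ≤ A * 2 ^ i → ∀ p : ℝ × ℝ,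
      |DD κ.K κ.psi i w s z a p| ≤ Ca * 2 ^ i * 2 ^ (i * a)) → ∀ x Y : ℝ,
      |F a (x, Y)| ≤ 2 ^ (j * a) * (Ca * H (x, Y + s * x)) := by
    intro a ha Ca hCa0 hCa x Y
    rw [hF]
    unfold FF
    rw [hH]
    simp only
    rw [Finset.mul_sum, Finset.mul_sum]
    refine (Finset.abs_sum_le_sum_abs _ _).trans (Finset.sum_le_sum fun i hi => ?_)
    have him : i < m := Finset.mem_range.1 hi
    have hij : i ≤ j := by omega
    -- pointwise bound of the integrand
    have hpt : ∀ z, |DD κ.K κ.psi i (u z) s z a (x, Y) * (E i).indicator g z| ≤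
        (avs s (1 + A) i (x, Y + s * x)).indicator
          (fun z => Ca * 2 ^ i * 2 ^ (i * a) * (E i).indicator (fun z => |g z|) z) z := by
      intro z
      by_cases hz : z ∈ E i
      · have hw := hs' i him z hz
        by_cases hb : 2 ^ i * |z.1 - x| ≤ 1 / 8 ∧ |z.2 - (Y + s * x) - (z.1 - x) * u z| ≤ 1
        · have hin : z ∈ avs s (1 + A) i (x, Y + s * x) := by
            have h0 : (0:ℝ) < 2 ^ i := by positivity
            refine ⟨?_, ?_⟩
            · simp only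
              rw [le_div_iff₀ h0]
              nlinarith [hb.1]
            · simp only
              have h1 : z.2 - s * z.1 - (Y + s * x - s * x) =
                  (z.2 - (Y + s * x) - (z.1 - x) * u z) + (z.1 - x) * (u z - s) := by ring
              rw [h1]
              have h2 : |(z.1 - x) * (u z - s)| ≤ A := by
                rw [abs_mul]
                have h3 : |z.1 - x| * |u z - s| ≤ |z.1 - x| * (A * 2 ^ i) :=
                  mul_le_mul_of_nonneg_left hw (abs_nonneg _)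
                have h4 : |z.1 - x| * (A * 2 ^ i) = A * (2 ^ i * |z.1 - x|) := by ring
                have h5 : A * (2 ^ i * |z.1 - x|) ≤ A * 1 :=
                  mul_le_mul_of_nonneg_left (by linarith [hb.1]) hA
                linarith
              exact (abs_add_le _ _).trans (by linarith [hb.2])
          rw [indicator_of_mem hin, indicator_of_mem hz, indicator_of_mem hz, abs_mul]
          exact mul_le_mul_of_nonneg_right (hCa i (u z) s z hw (x, Y)) (abs_nonneg _)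
        · rw [DD_zero hKs hψs i (u z) s z a hb, zero_mul, abs_zero]
          exact indicator_nonneg (fun z _ => mul_nonneg (by positivity) (hg0 i z)) z
      · rw [indicator_of_notMem hz, mul_zero, abs_zero]
        exact indicator_nonneg (fun z _ => mul_nonneg (by positivity) (hg0 i z)) z
    have hint : |∫ z, DD κ.K κ.psi i (u z) s z a (x, Y) * (E i).indicator g z| ≤
        Ca * 2 ^ (i * a) * Av s (1 + A) i ((E i).indicator fun z => |g z|) (x, Y + s * x) := by
      refine (abs_integral_le_integral_abs).trans ?_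
      have h1 := integral_mono_of_nonneg (μ := (volume : Measure (ℝ × ℝ)))
        (Filter.Eventually.of_forall fun z => abs_nonneg
          (DD κ.K κ.psi i (u z) s z a (x, Y) * (E i).indicator g z))
        (((hga i).const_mul (Ca * 2 ^ i * 2 ^ (i * a))).indicator
          (avs_meas s (1 + A) i (x, Y + s * x))) (Filter.Eventually.of_forall hpt)
      refine h1.trans (le_of_eq ?_)
      rw [integral_indicator (avs_meas s (1 + A) i (x, Y + s * x)), integral_const_mul, Av_eq]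
      ring
    refine hint.trans ?_
    have hAv := Av_nonneg s (1 + A) i (hg0 i) (x, Y + s * x)
    have hpow : (2:ℝ) ^ (i * a) ≤ 2 ^ (j * a) * (2 ^ i / 2 ^ j) := by
      have h0 : (0:ℝ) < 2 ^ j := by positivity
      rw [mul_div_assoc', le_div_iff₀ h0, ← pow_add, ← pow_add]
      apply pow_le_pow_right₀ (by norm_num)
      obtain ⟨b, rfl⟩ : ∃ b, a = b + 1 := ⟨a - 1, by omega⟩
      nlinarith [Nat.mul_le_mul_right b hij]
    calc Ca * 2 ^ (i * a) * Av s (1 + A) i ((E i).indicator fun z => |g z|) (x, Y + s * x)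
        ≤ Ca * (2 ^ (j * a) * (2 ^ i / 2 ^ j)) *
          Av s (1 + A) i ((E i).indicator fun z => |g z|) (x, Y + s * x) := by gcongr
      _ = _ := by ring
  -- the majorant
  set G : ℝ × ℝ → ℝ≥0∞ := fun ζ => ENNReal.ofReal (CG * (|κ.FS u g E m ζ| + H ζ)) with hG
  have hGm : Measurable G := by
    rw [hG]
    have h1 := hFSc.measurable
    fun_prop
  have hFG : ∀ a ≤ 2, ∀ x Y, ‖F a (x, Y)‖ₑ ≤
      ENNReal.ofReal (2 ^ (j * a)) * G (x, Y + s * x) := by
    intro a ha x Y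
    rw [hG]
    simp only
    rw [← ENNReal.ofReal_mul (by positivity), ← ofReal_norm, Real.norm_eq_abs]
    apply ENNReal.ofReal_le_ofReal
    have hHn := hH0 (x, Y + s * x)
    have hFn := abs_nonneg (κ.FS u g E m (x, Y + s * x))
    have hpp : (0:ℝ) ≤ 2 ^ (j * a) := by positivity
    interval_cases a
    · rw [hF0']
      simp only [Nat.mul_zero, pow_zero, one_mul]
      nlinarith
    · refine (hder 1 le_rfl C1 hC10 hC1 x Y).trans ?_
      refine mul_le_mul_of_nonneg_left ?_ hpp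
      nlinarith
    · refine (hder 2 (by norm_num) C2 hC20 hC2 x Y).trans ?_
      refine mul_le_mul_of_nonneg_left ?_ hpp
      nlinarith
  have hmain := hC j z v s hvs F (fun a _ => hFc a)
    (fun a _ x Y => FF_deriv κ.smoothK hKs hψc hψs hu.meas hg hE hA hs' a x Y) G hGm hFG
  -- translate
  have hL : ∫ ζ, kr κ.K (iteratedDeriv 2 P) j v z ζ * F 0 (ζ.1, ζ.2 - s * ζ.1) =
      ∫ ζ, κ.k j v z ζ * κ.FS u g E m ζ := by
    refine integral_congr_ae (Filter.Eventually.of_forall fun ζ => ?_)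
    simp only
    rw [hF0, hPM]
    rfl
  rw [hL] at hmain
  -- the right-hand side
  set R : ℝ × ℝ → ℝ := fun ζ => |κ.FS u g E m ζ| + H ζ with hR
  have hR0 : ∀ ζ, 0 ≤ R ζ := fun ζ => add_nonneg (abs_nonneg _) (hH0 ζ)
  have hRm : Measurable R := by
    rw [hR]
    exact (continuous_abs.measurable.comp hFSc.measurable).add hHm
  have hfinA : volume (avs v 2 j z) < ⊤ := avs_fin v 2 (by norm_num) j z
  have hRi : IntegrableOn R (avs v 2 j z) := by
    have h1 : IntegrableOn (fun ζ => |κ.FS u g E m ζ|) (avs v 2 j z) := by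
      have h2 : IntegrableOn (fun ζ => |κ.FS u g E m ζ|)
          (Icc (z.1 - 2) (z.1 + 2) ×ˢ Icc (z.2 - (2 + |v| * 2)) (z.2 + (2 + |v| * 2))) :=
        (continuous_abs.comp hFSc).continuousOn.integrableOn_compact
          (isCompact_Icc.prod isCompact_Icc)
      exact h2.mono_set (avs_sub v 2 (by norm_num) j z)
    have h3 : IntegrableOn H (avs v 2 j z) := by
      apply Measure.integrableOn_of_bounded
        (M := ∑ i ∈ Finset.range m, 2 ^ i / 2 ^ j * (2 ^ i * ∫ z, (E i).indicator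
          (fun z => |g z|) z)) hfinA.ne hHm.aestronglyMeasurable
      filter_upwards with ζ
      rw [Real.norm_eq_abs, abs_of_nonneg (hH0 ζ)]
      exact Finset.sum_le_sum fun i _ => mul_le_mul_of_nonneg_left
        (Av_le s (1 + A) i (hga i) (hg0 i) ζ) (by positivity)
    exact h1.add h3
  have hsub : box j v z ⊆ avs v 2 j z := by
    rintro ζ ⟨h1, h2⟩
    have h0 : (0:ℝ) < 2 ^ j := by positivity
    refine ⟨?_, ?_⟩
    · rw [le_div_iff₀ h0, abs_sub_comm]
      nlinarith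
    · have h3 : ζ.2 - v * ζ.1 - (z.2 - v * z.1) = -(z.2 - ζ.2 - (z.1 - ζ.1) * v) := by ring
      rw [h3, abs_neg]
      linarith
  have hint : ∫⁻ ζ in box j v z, G ζ ≤ ENNReal.ofReal (CG * ∫ ζ in avs v 2 j z, R ζ) := by
    rw [← integral_const_mul, ofReal_integral_eq_lintegral_ofReal (hRi.const_mul CG)
      (Filter.Eventually.of_forall fun ζ => mul_nonneg (by linarith) (hR0 ζ))]
    exact lintegral_mono_set hsub
  have hfin := hmain.trans (mul_le_mul_right hint _)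
  have hRint : 0 ≤ ∫ ζ in avs v 2 j z, R ζ := integral_nonneg fun ζ => hR0 ζ
  rw [← ENNReal.ofReal_mul (by positivity), ← ofReal_norm, Real.norm_eq_abs,
    ENNReal.ofReal_le_ofReal_iff (by positivity)] at hfin
  refine hfin.trans (le_of_eq ?_)
  rw [Av_eq]
  ring

end Vale.Agent.P112.H522
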