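import Vale.Agent.P112.T.DefsN
import Vale.Agent.P112.H522.T4b

/-!
# P112, chapter (T), `StN4b`: integration by parts against a tree sum, frequency parameter `N`
-/

open MeasureTheory Set Filter
open scoped ENNReal NNReal Topology ContDiff

namespace Vale.Agent.P112.H522

open Vale.Agent.P112.T

/-- the explicit constant of the kernel derivatives -/
noncomputable def CD (a : ℕ) (A C0 : ℝ) : ℝ :=
  ∑ ij ∈ Finset.HasAntidiagonal.antidiagonal a, (a.choose ij.1 : ℝ) * (C0 * (A ^ ij.2 * C0))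

theorem CD_nonneg (a : ℕ) {A C0 : ℝ} (hA : 0 ≤ A) (hC0 : 0 ≤ C0) : 0 ≤ CD a A C0 :=
  Finset.sum_nonneg fun ij _ => mul_nonneg (Nat.cast_nonneg _)
      (mul_nonneg hC0 (mul_nonneg (by positivity) hC0))

theorem DD_boundN {K ψ : ℝ → ℝ} {A C0 N : ℝ} (hA : 0 ≤ A) (hC0 : 0 ≤ C0) (hN : 0 < N) (a : ℕ)
    (hK : ∀ b ≤ a, ∀ t, |iteratedDeriv b K t| ≤ C0)
    (hψ : ∀ b ≤ a, ∀ t, |iteratedDeriv b ψ t| ≤ C0 * N ^ b) (i : ℕ) (w s : ℝ) (z : ℝ × ℝ)
    (hw : |w - s| ≤ A * 2 ^ i / N) (p : ℝ × ℝ) :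
    |DD K ψ i w s z a p| ≤ CD a A C0 * 2 ^ i * 2 ^ (i * a) := by
  unfold DD leib CD
  rw [Finset.sum_mul, Finset.sum_mul]
  refine (Finset.abs_sum_le_sum_abs _ _).trans (Finset.sum_le_sum fun ij hij => ?_)
  have hle := Finset.HasAntidiagonal.mem_antidiagonal.1 hij
  have h1 := kap_abs (hK ij.1 (by omega)) i z.1 p.1
  have h2 : |pq ψ w s z p.2 ij.2 p.1| ≤ A ^ ij.2 * 2 ^ (i * ij.2) * C0 := by
    unfold pq
    rw [abs_mul, abs_pow]
    have h3 : |w - s| ^ ij.2 ≤ A ^ ij.2 * 2 ^ (i * ij.2) / N ^ ij.2 := by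
      rw [pow_mul, ← mul_pow, ← div_pow]
      exact pow_le_pow_left₀ (abs_nonneg _) hw _
    refine (mul_le_mul h3 (hψ ij.2 (by omega) _) (abs_nonneg _) (by positivity)).trans
      (le_of_eq ?_)
    have : N ^ ij.2 ≠ 0 := by positivity
    field_simp
  rw [abs_mul, abs_mul, abs_of_nonneg (Nat.cast_nonneg _ : (0:ℝ) ≤ (a.choose ij.1 : ℝ))]
  calc (a.choose ij.1 : ℝ) * (|kap K i z.1 ij.1 p.1| * |pq ψ w s z p.2 ij.2 p.1|)
      ≤ (a.choose ij.1 : ℝ) * ((C0 * 2 ^ i * 2 ^ (i * ij.1)) *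
          (A ^ ij.2 * 2 ^ (i * ij.2) * C0)) := by
        refine mul_le_mul_of_nonneg_left ?_ (Nat.cast_nonneg _)
        exact mul_le_mul h1 h2 (abs_nonneg _)
          (mul_nonneg (mul_nonneg hC0 (by positivity)) (by positivity))
    _ = _ := by
        have h6 : (2:ℝ) ^ (i * a) = 2 ^ (i * ij.1) * 2 ^ (i * ij.2) := by
          rw [← pow_add, ← Nat.mul_add, hle]
        rw [h6]; ring

theorem stN4b (M : ℕ) (A C0 : ℝ) (hM : 2 ≤ M) (hA1 : 1 ≤ A) : StN4b M A C0 := by
  have hA : 0 ≤ A := by linarith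
  set C1 : ℝ := CD 1 A |C0| with hC1d
  set C2 : ℝ := CD 2 A |C0| with hC2d
  have hC10 : 0 ≤ C1 := CD_nonneg 1 hA (abs_nonneg _)
  have hC20 : 0 ≤ C2 := CD_nonneg 2 hA (abs_nonneg _)
  set CG : ℝ := 1 + C1 + C2 with hCG
  have hCG1 : 1 ≤ CG := by rw [hCG]; linarith
  set CL : ℝ := |C0| * ∑ ij ∈ Finset.HasAntidiagonal.antidiagonal 2,
    ((2 : ℕ).choose ij.1 : ℝ) * |C0| with hCL
  have hCL0 : 0 ≤ CL := mul_nonneg (abs_nonneg _) (Finset.sum_nonneg fun ij _ =>
    mul_nonneg (Nat.cast_nonneg _) (abs_nonneg _))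
  refine ⟨(CL + 1) * CG, 1 + A, by positivity, by linarith, ?_⟩
  intro N κ hB
  have hN1 := hB.one_le
  have hN : 0 < N := by linarith
  have hC00 : C0 ≤ |C0| := le_abs_self _
  have hKs : ∀ t, 1 / 8 < |t| → κ.K t = 0 := fun t ht => κ.suppK t ht.le
  have hΦs : ∀ t, 1 < |t| → κ.Φ t = 0 := fun t ht => κ.suppΦ t ht.le
  -- the twice integrated band function
  set P : ℝ → ℝ := iteratedDeriv (M - 2) κ.Φ with hP
  have hPc : ContDiff ℝ ∞ P := by
    rw [hP, iteratedDeriv_eq_iterate]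
    exact κ.smoothΦ.iterate_deriv _
  have hPs : ∀ t, 1 < |t| → P t = 0 := fun t ht => iter_zero hΦs _ ht
  have hPM : iteratedDeriv 2 P = κ.psi := by
    rw [hP, Ker.psi, iteratedDeriv_eq_iterate, iteratedDeriv_eq_iterate, iteratedDeriv_eq_iterate,
      ← Function.iterate_add_apply]
    congr 2
    omega
  have hψc : ContDiff ℝ ∞ κ.psi := by
    rw [← hPM, iteratedDeriv_eq_iterate]
    exact hPc.iterate_deriv _
  have hψs : ∀ t, 1 < |t| → κ.psi t = 0 := fun t ht => iter_zero hΦs _ ht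
  have hKb : ∀ b ≤ 2, ∀ t, |iteratedDeriv b κ.K t| ≤ |C0| := fun b hb t =>
    (hB.K_bd b (by omega) t).trans hC00
  have hψb : ∀ b ≤ 2, ∀ t, |iteratedDeriv b κ.psi t| ≤ |C0| * N ^ b := by
    intro b hb t
    have h1 : iteratedDeriv b κ.psi = iteratedDeriv (M + b) κ.Φ := by
      rw [Ker.psi, iteratedDeriv_eq_iterate, iteratedDeriv_eq_iterate, iteratedDeriv_eq_iterate,
        ← Function.iterate_add_apply, add_comm]
    rw [h1]
    refine (hB.Φ_bd (M + b) (by omega) t).trans ?_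
    rw [pow_add]
    have h2 : N ^ M ≠ 0 := by positivity
    have h3 : C0 * (N ^ M * N ^ b) / N ^ M = C0 * N ^ b := by field_simp
    rw [h3]
    exact mul_le_mul_of_nonneg_right hC00 (by positivity)
  have hPb : ∀ t, |P t| ≤ |C0| / N ^ 2 := by
    intro t
    refine (hB.Φ_bd (M - 2) (by omega) t).trans ?_
    have h2 : N ^ M = N ^ (M - 2) * N ^ 2 := by rw [← pow_add]; congr 1; omega
    rw [h2]
    have h3 : N ^ (M - 2) ≠ 0 := by positivity
    have h4 : C0 * N ^ (M - 2) / (N ^ (M - 2) * N ^ 2) = C0 / N ^ 2 := by field_simp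
    rw [h4]
    gcongr
  have hC1 : ∀ (i : ℕ) (w s : ℝ) (z : ℝ × ℝ), |w - s| ≤ A * 2 ^ i / N → ∀ p : ℝ × ℝ,
      |DD κ.K κ.psi i w s z 1 p| ≤ C1 * 2 ^ i * 2 ^ (i * 1) := fun i w s z hw p =>
    DD_boundN hA (abs_nonneg _) hN 1 (fun b hb => hKb b (by omega))
      (fun b hb => hψb b (by omega)) i w s z hw p
  have hC2 : ∀ (i : ℕ) (w s : ℝ) (z : ℝ × ℝ), |w - s| ≤ A * 2 ^ i / N → ∀ p : ℝ × ℝ,
      |DD κ.K κ.psi i w s z 2 p| ≤ C2 * 2 ^ i * 2 ^ (i * 2) := fun i w s z hw p =>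
    DD_boundN hA (abs_nonneg _) hN 2 (fun b hb => hKb b (by omega))
      (fun b hb => hψb b (by omega)) i w s z hw p
  intro u hu n E hE s hs g hg j hj m hm v z hv
  have hsN : ∀ i < m, ∀ z ∈ E i, |u z - s| ≤ A * 2 ^ i / N := fun i hi => hs i (by omega)
  have hs' : ∀ i < m, ∀ z ∈ E i, |u z - s| ≤ A * 2 ^ i := fun i hi z hz =>
    (hsN i hi z hz).trans (div_le_self (by positivity) hN1)
  have hvs : v ≠ s := by
    intro h
    rw [h, sub_self, abs_zero, mul_zero] at hv
    have : (0:ℝ) < 2 ^ j := by positivity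
    linarith
  -- absolute values of `g` on the pieces
  have hga : ∀ i, Integrable ((E i).indicator fun z => |g z|) := fun i =>
    (nice_integrable hg).abs.indicator (hE i)
  have hgm : ∀ i, Measurable ((E i).indicator fun z => |g z|) := fun i =>
    (continuous_abs.measurable.comp hg.meas).indicator (hE i)
  have hg0 : ∀ i z, 0 ≤ (E i).indicator (fun z => |g z|) z := fun i z =>
    indicator_nonneg (fun z _ => abs_nonneg _) z
  set H : ℝ × ℝ → ℝ := fun ζ => ∑ i ∈ Finset.range m,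
    2 ^ i / 2 ^ j * Av s (1 + A) i ((E i).indicator fun z => |g z|) ζ with hH
  have hH0 : ∀ ζ, 0 ≤ H ζ := fun ζ => Finset.sum_nonneg fun i _ =>
    mul_nonneg (by positivity) (Av_nonneg _ _ _ (hg0 i) ζ)
  have hHm : Measurable H := by
    rw [hH]
    refine Finset.measurable_sum _ fun i _ => ?_
    exact (Av_meas s (1 + A) i (hgm i)).const_mul _
  set F : ℕ → ℝ × ℝ → ℝ := FF κ.K κ.psi u g E s m with hF
  have hF0 : ∀ ζ : ℝ × ℝ, F 0 (ζ.1, ζ.2 - s * ζ.1) = κ.FS u g E m ζ := by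
    intro ζ
    rw [hF]
    unfold FF Ker.FS Ker.S
    refine Finset.sum_congr rfl fun i _ => ?_
    refine integral_congr_ae (Filter.Eventually.of_forall fun z => ?_)
    simp only [DD, leib, kap, pq, Ker.k]
    simp
  have hF0' : ∀ x Y : ℝ, F 0 (x, Y) = κ.FS u g E m (x, Y + s * x) := by
    intro x Y
    rw [← hF0]
    simp
  have hFc : ∀ a, Continuous (F a) := fun a => FF_cont κ.smoothK hKs hψc hψs hu.meas hg hE hA hs' a
  have hFSc : Continuous (κ.FS u g E m) := by
    rw [show κ.FS u g E m = fun ζ => F 0 (ζ.1, ζ.2 - s * ζ.1) from (funext hF0).symm]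
    exact (hFc 0).comp (by fun_prop)
  -- the pointwise bounds of the derivatives
  have hder : ∀ a : ℕ, 1 ≤ a → ∀ Ca : ℝ, 0 ≤ Ca → (∀ (i : ℕ) (w s : ℝ) (z : ℝ × ℝ),
      |w - s| ≤ A * 2 ^ i / N → ∀ p : ℝ × ℝ,
      |DD κ.K κ.psi i w s z a p| ≤ Ca * 2 ^ i * 2 ^ (i * a)) → ∀ x Y : ℝ,
      |F a (x, Y)| ≤ 2 ^ (j * a) * (Ca * H (x, Y + s * x)) := by
    intro a ha Ca hCa0 hCa x Y
    rw [hF]
    unfold FF
    rw [hH]
    simp only
    rw [Finset.mul_sum, Finset.mul_sum]
    refine (Finset.abs_sum_le_sum_abs _ _).trans (Finset.sum_le_sum fun i hi => ?_)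
    have him : i < m := Finset.mem_range.1 hi
    have hij : i ≤ j := by omega
    -- pointwise bound of the integrand
    have hpt : ∀ z, |DD κ.K κ.psi i (u z) s z a (x, Y) * (E i).indicator g z| ≤
        (avs s (1 + A) i (x, Y + s * x)).indicator
          (fun z => Ca * 2 ^ i * 2 ^ (i * a) * (E i).indicator (fun z => |g z|) z) z := by
      intro z
      by_cases hz : z ∈ E i
      · have hw := hs' i him z hz
        by_cases hb : 2 ^ i * |z.1 - x| ≤ 1 / 8 ∧ |z.2 - (Y + s * x) - (z.1 - x) * u z| ≤ 1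
        · have hin : z ∈ avs s (1 + A) i (x, Y + s * x) := by
            have h0 : (0:ℝ) < 2 ^ i := by positivity
            refine ⟨?_, ?_⟩
            · simp only
              rw [le_div_iff₀ h0]
              nlinarith [hb.1]
            · simp only
              have h1 : z.2 - s * z.1 - (Y + s * x - s * x) =
                  (z.2 - (Y + s * x) - (z.1 - x) * u z) + (z.1 - x) * (u z - s) := by ring
              rw [h1]
              have h2 : |(z.1 - x) * (u z - s)| ≤ A := by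
                rw [abs_mul]
                have h3 : |z.1 - x| * |u z - s| ≤ |z.1 - x| * (A * 2 ^ i) :=
                  mul_le_mul_of_nonneg_left hw (abs_nonneg _)
                have h4 : |z.1 - x| * (A * 2 ^ i) = A * (2 ^ i * |z.1 - x|) := by ring
                have h5 : A * (2 ^ i * |z.1 - x|) ≤ A * 1 :=
                  mul_le_mul_of_nonneg_left (by linarith [hb.1]) hA
                linarith
              exact (abs_add_le _ _).trans (by linarith [hb.2])
          rw [indicator_of_mem hin, indicator_of_mem hz, indicator_of_mem hz, abs_mul]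
          exact mul_le_mul_of_nonneg_right (hCa i (u z) s z (hsN i him z hz) (x, Y)) (abs_nonneg _)
        · rw [DD_zero hKs hψs i (u z) s z a hb, zero_mul, abs_zero]
          exact indicator_nonneg (fun z _ => mul_nonneg (by positivity) (hg0 i z)) z
      · rw [indicator_of_notMem hz, mul_zero, abs_zero]
        exact indicator_nonneg (fun z _ => mul_nonneg (by positivity) (hg0 i z)) z
    have hint : |∫ z, DD κ.K κ.psi i (u z) s z a (x, Y) * (E i).indicator g z| ≤
        Ca * 2 ^ (i * a) * Av s (1 + A) i ((E i).indicator fun z => |g z|) (x, Y + s * x) := by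
      refine (abs_integral_le_integral_abs).trans ?_
      have h1 := integral_mono_of_nonneg (μ := (volume : Measure (ℝ × ℝ)))
        (Filter.Eventually.of_forall fun z => abs_nonneg
          (DD κ.K κ.psi i (u z) s z a (x, Y) * (E i).indicator g z))
        (((hga i).const_mul (Ca * 2 ^ i * 2 ^ (i * a))).indicator
          (avs_meas s (1 + A) i (x, Y + s * x))) (Filter.Eventually.of_forall hpt)
      refine h1.trans (le_of_eq ?_)
      rw [integral_indicator (avs_meas s (1 + A) i (x, Y + s * x)), integral_const_mul, Av_eq]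
      ring
    refine hint.trans ?_
    have hAv := Av_nonneg s (1 + A) i (hg0 i) (x, Y + s * x)
    have hpow : (2:ℝ) ^ (i * a) ≤ 2 ^ (j * a) * (2 ^ i / 2 ^ j) := by
      have h0 : (0:ℝ) < 2 ^ j := by positivity
      rw [mul_div_assoc', le_div_iff₀ h0, ← pow_add, ← pow_add]
      apply pow_le_pow_right₀ (by norm_num)
      obtain ⟨b, rfl⟩ : ∃ b, a = b + 1 := ⟨a - 1, by omega⟩
      nlinarith [Nat.mul_le_mul_right b hij]
    calc Ca * 2 ^ (i * a) * Av s (1 + A) i ((E i).indicator fun z => |g z|) (x, Y + s * x)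
        ≤ Ca * (2 ^ (j * a) * (2 ^ i / 2 ^ j)) *
          Av s (1 + A) i ((E i).indicator fun z => |g z|) (x, Y + s * x) := by gcongr
      _ = _ := by ring
  -- the majorant
  set G : ℝ × ℝ → ℝ≥0∞ := fun ζ => ENNReal.ofReal (CG * (|κ.FS u g E m ζ| + H ζ)) with hG
  have hGm : Measurable G := by
    rw [hG]
    have h1 := hFSc.measurable
    fun_prop
  have hFG : ∀ a ≤ 2, ∀ x Y, ‖F a (x, Y)‖ₑ ≤
      ENNReal.ofReal (2 ^ (j * a)) * G (x, Y + s * x) := by
    intro a ha x Y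
    rw [hG]
    simp only
    rw [← ENNReal.ofReal_mul (by positivity), ← ofReal_norm, Real.norm_eq_abs]
    apply ENNReal.ofReal_le_ofReal
    have hHn := hH0 (x, Y + s * x)
    have hFn := abs_nonneg (κ.FS u g E m (x, Y + s * x))
    have hpp : (0:ℝ) ≤ 2 ^ (j * a) := by positivity
    interval_cases a
    · rw [hF0']
      simp only [Nat.mul_zero, pow_zero, one_mul]
      nlinarith
    · refine (hder 1 le_rfl C1 hC10 hC1 x Y).trans ?_
      refine mul_le_mul_of_nonneg_left ?_ hpp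
      nlinarith
    · refine (hder 2 (by norm_num) C2 hC20 hC2 x Y).trans ?_
      refine mul_le_mul_of_nonneg_left ?_ hpp
      nlinarith
  have hmain := ibp_pair_c 2 κ.smoothK hKs hPc hPs (CK := fun _ => |C0|) (fun _ => abs_nonneg _)
    (fun a ha => hKb a ha) (Cψ := |C0| / N ^ 2) (by positivity) hPb j z v s hvs F (fun a _ => hFc a)
    (fun a _ x Y => FF_deriv κ.smoothK hKs hψc hψs hu.meas hg hE hA hs' a x Y) G hGm hFG
  have hCLe : |C0| / N ^ 2 * (∑ ij ∈ Finset.HasAntidiagonal.antidiagonal 2,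
      ((2 : ℕ).choose ij.1 : ℝ) * |C0|) * (2 ^ j / |v - s|) ^ 2 * 2 ^ j =
      CL * (2 ^ j / (N * |v - s|)) ^ 2 * 2 ^ j := by
    rw [hCL]
    field_simp
  rw [hCLe] at hmain
  -- translate
  have hL : ∫ ζ, kr κ.K (iteratedDeriv 2 P) j v z ζ * F 0 (ζ.1, ζ.2 - s * ζ.1) =
      ∫ ζ, κ.k j v z ζ * κ.FS u g E m ζ := by
    refine integral_congr_ae (Filter.Eventually.of_forall fun ζ => ?_)
    simp only
    rw [hF0, hPM]
    rfl
  rw [hL] at hmain
  -- the right-hand side
  set R : ℝ × ℝ → ℝ := fun ζ => |κ.FS u g E m ζ| + H ζ with hR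
  have hR0 : ∀ ζ, 0 ≤ R ζ := fun ζ => add_nonneg (abs_nonneg _) (hH0 ζ)
  have hRm : Measurable R := by
    rw [hR]
    exact (continuous_abs.measurable.comp hFSc.measurable).add hHm
  have hfinA : volume (avs v 2 j z) < ⊤ := avs_fin v 2 (by norm_num) j z
  have hRi : IntegrableOn R (avs v 2 j z) := by
    have h1 : IntegrableOn (fun ζ => |κ.FS u g E m ζ|) (avs v 2 j z) := by
      have h2 : IntegrableOn (fun ζ => |κ.FS u g E m ζ|)
          (Icc (z.1 - 2) (z.1 + 2) ×ˢ Icc (z.2 - (2 + |v| * 2)) (z.2 + (2 + |v| * 2))) :=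
        (continuous_abs.comp hFSc).continuousOn.integrableOn_compact
          (isCompact_Icc.prod isCompact_Icc)
      exact h2.mono_set (avs_sub v 2 (by norm_num) j z)
    have h3 : IntegrableOn H (avs v 2 j z) := by
      apply Measure.integrableOn_of_bounded
        (M := ∑ i ∈ Finset.range m, 2 ^ i / 2 ^ j * (2 ^ i * ∫ z, (E i).indicator
          (fun z => |g z|) z)) hfinA.ne hHm.aestronglyMeasurable
      filter_upwards with ζ
      rw [Real.norm_eq_abs, abs_of_nonneg (hH0 ζ)]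
      exact Finset.sum_le_sum fun i _ => mul_le_mul_of_nonneg_left
        (Av_le s (1 + A) i (hga i) (hg0 i) ζ) (by positivity)
    exact h1.add h3
  have hsub : box j v z ⊆ avs v 2 j z := by
    rintro ζ ⟨h1, h2⟩
    have h0 : (0:ℝ) < 2 ^ j := by positivity
    refine ⟨?_, ?_⟩
    · rw [le_div_iff₀ h0, abs_sub_comm]
      nlinarith
    · have h3 : ζ.2 - v * ζ.1 - (z.2 - v * z.1) = -(z.2 - ζ.2 - (z.1 - ζ.1) * v) := by ring
      rw [h3, abs_neg]
      linarith
  have hint : ∫⁻ ζ in box j v z, G ζ ≤ ENNReal.ofReal (CG * ∫ ζ in avs v 2 j z, R ζ) := by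
    rw [← integral_const_mul, ofReal_integral_eq_lintegral_ofReal (hRi.const_mul CG)
      (Filter.Eventually.of_forall fun ζ => mul_nonneg (by linarith) (hR0 ζ))]
    exact lintegral_mono_set hsub
  have hfin := hmain.trans (mul_le_mul_right hint _)
  have hRint : 0 ≤ ∫ ζ in avs v 2 j z, R ζ := integral_nonneg fun ζ => hR0 ζ
  rw [← ENNReal.ofReal_mul (by positivity), ← ofReal_norm, Real.norm_eq_abs,
    ENNReal.ofReal_le_ofReal_iff (by positivity)] at hfin
  rw [Av_eq]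
  refine hfin.trans ?_
  calc CL * (2 ^ j / (N * |v - s|)) ^ 2 * 2 ^ j * (CG * ∫ ζ in avs v 2 j z, R ζ)
      ≤ (CL + 1) * (2 ^ j / (N * |v - s|)) ^ 2 * 2 ^ j * (CG * ∫ ζ in avs v 2 j z, R ζ) := by
        gcongr
        linarith
    _ = _ := by ring

end Vale.Agent.P112.H522
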